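import Vale.Agent.P128.H445.Decay

/-! Uniform flatness away from the clusters of bad points. -/

set_option linter.all false

open MeasureTheory Set Metric Filter
open scoped ENNReal NNReal Topology Real

namespace Vale.Agent.P128.Q1

open Vale.Agent.P128

variable {Ω : Set ℂ} {g u : ℂ → ℝ} {G : ℂ → ℂ} {K : Set ℂ} {M : ℝ} {x₀ : ℂ} {R₀ : ℝ}

/-- `AllClose.flat` with uniform scales. -/
theorem flat_unif {ρ : ℝ → ℝ → ℝ} (hρ : ∀ R ε, 1 ≤ R → 0 < ε → 0 < ρ R ε) {δ : ℝ} (hδ : 0 < δ) :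
    ∃ r₀ > 0, ∃ c > 0, c ≤ 1 ∧ ∀ {G : ℂ → ℂ} {K : Set ℂ} {x₀ : ℂ} {R₀ : ℝ}, ACl ρ G K x₀ R₀ →
      ∀ y ∈ K ∩ closedBall x₀ R₀, ∀ r₁, 0 < r₁ → r₁ ≤ r₀ → Mid K y r₁ →
      ∀ r, 0 < r → r ≤ c * r₁ → LineClose G K y r δ := by
  obtain ⟨S, ε, hS64, hSδ, hε, hεδ, hε1⟩ := tyFlat_const hδ
  refine ⟨min (ρ 2 (1 / 100)) (ρ S ε), lt_min (hρ _ _ (by norm_num) (by norm_num))
    (hρ _ _ (by linarith only [hS64]) hε), 1 / (2 * S), by positivity, ?_, ?_⟩
  · rw [div_le_one (by positivity)]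
    linarith only [hS64]
  intro G K x₀ R₀ h
  have hmid := h.mid_down
  have hcl := h S ε (by linarith only [hS64]) hε
  intro y hy r₁ hr₁ hr₁' hm r hr hrc
  have hS0 : 0 < S := by linarith only [hε1, hε, hS64]
  have hrr : 2 * S * r ≤ r₁ := by
    have h1 : 1 / (2 * S) * r₁ = r₁ / (2 * S) := by ring
    rw [h1, le_div_iff₀ (by positivity)] at hrc
    linarith only [hrc]
  have hr_le : r ≤ r₁ := (le_mul_of_one_le_left hr.le (by linarith)).trans hrr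
  obtain ⟨L, F, hmod, hc⟩ := hcl y hy r hr ((hr_le.trans hr₁').trans (min_le_right _ _))
  obtain ⟨k, σ, hσr, hσ1, hσ2⟩ := tyFlat_scale hS64 hr hrr
  have hσ0 : 0 < σ := by linarith
  have hmk := hmid y hy r₁ hr₁ (hr₁'.trans (min_le_left _ _)) hm k
  rw [← hσr] at hmk
  obtain ⟨hmk1, hmk2⟩ := hmk
  have hS1 : 1 / S ≤ 1 := by rw [div_le_iff₀ hS0]; linarith only [hε1, hε, hS64]
  obtain ⟨-, h3⟩ := hc.2.2 σ (hS1.trans (by linarith only [hσ1, hε1, hε, hS64])) hσ2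
  obtain ⟨h31, h32⟩ := abs_le.1 h3
  have h4 : 3 / 2 * σ ≤ Hn K y (σ * r) / r := by
    rw [le_div_iff₀ hr]; linarith only [hmk1]
  have h5 : Hn K y (σ * r) / r ≤ 5 / 2 * σ := by
    rw [div_le_iff₀ hr]; linarith only [hmk2]
  obtain ⟨a, ha, hLa, hF⟩ := hmod.flat_of hσ0 (by linarith only [h4, h32, hσ1, hε1, hε, hS64]) (by linarith only [h5, h31, hσ1, hε1, hε, hS64])
  refine tyFlat_core hr ha hε.le hεδ hε1 hS64 (fun p hp => ?_)
    (tyFlat_F hδ (by linarith only [hσ1, hSδ]) (hF 1 zero_le_one (by linarith only [hσ1, hε1, hε, hS64])).2) hc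
  have hpb : p ∈ ball (0 : ℂ) (σ / 4) := by
    rw [mem_ball_zero_iff]; linarith only [hp, hσ1, hS64]
  constructor
  · intro hpL
    have : p ∈ L ∩ ball 0 (σ / 4) := ⟨hpL, hpb⟩
    rw [hLa] at this
    exact this.1
  · intro hpL
    have : p ∈ lineM a ∩ ball 0 (σ / 4) := ⟨hpL, hpb⟩
    rw [← hLa] at this
    exact this.1

theorem away_of_ray_at {x y : ℂ} (hyK : y ∈ K) (hne : y ≠ x)
    (h : NearRay K x (2 * dist y x) (1 / 10000)) : ∃ e : ℂ, ‖e‖ = 1 ∧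
      (∀ z ∈ K ∩ closedBall y (dist y x / 2), ∃ t : ℝ, dist z (y + t * e) ≤ dist y x / 1000) ∧
      ∀ t : ℝ, |t| ≤ dist y x / 2 → ∃ z ∈ K, dist z (y + t * e) ≤ dist y x / 1000 := by
  have hρ : 0 < dist y x := dist_pos.2 hne
  obtain ⟨w, hw, h1, h2⟩ := h
  obtain ⟨τ, ⟨hτ0, hτ1⟩, hτ⟩ := h1 y ⟨hyK, by rw [mem_closedBall]; linarith⟩
  refine ⟨w, hw, ?_, ?_⟩
  · rintro z ⟨hzK, hzb⟩
    rw [mem_closedBall] at hzb
    obtain ⟨σ, -, hσ⟩ := h1 z ⟨hzK, by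
      rw [mem_closedBall]
      have := dist_triangle z y x
      linarith⟩
    exact ⟨σ - τ, tyRay_shift rfl hτ hσ hρ.le⟩
  · intro t ht
    have h3 : dist (x + τ • w) x = τ := by
      rw [dist_eq_norm, add_sub_cancel_left, norm_smul, hw, mul_one, Real.norm_eq_abs,
        abs_of_nonneg hτ0]
    have h4 := dist_triangle y (x + τ • w) x
    have h5 := dist_triangle (x + τ • w) y x
    rw [dist_comm (x + τ • w) y] at h5
    rw [h3] at h4 h5
    have ht' := abs_le.1 ht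
    obtain ⟨z, hzK, hz⟩ := h2 (τ + t) ⟨by linarith only [ht'.1, h4, hτ, hρ], by linarith [ht'.2]⟩
    exact ⟨z, hzK, tyRay_shift (by ring) hτ hz hρ.le⟩

theorem away_of_tripod_at {x y : ℂ} (hyK : y ∈ K) (hyx : y ≠ x)
    (h : NearTripod K x (2 * dist y x) (1 / 10000)) : ∃ e : ℂ, ‖e‖ = 1 ∧
      (∀ z ∈ K ∩ closedBall y (dist y x / 2), ∃ t : ℝ, dist z (y + t * e) ≤ dist y x / 1000) ∧
      ∀ t : ℝ, |t| ≤ dist y x / 2 → ∃ z ∈ K, dist z (y + t * e) ≤ dist y x / 1000 := by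
  have hρ : 0 < dist y x := dist_pos.2 hyx
  obtain ⟨w, hw, hA, hB⟩ := h
  set ρ := dist y x with hρdef
  obtain ⟨k, ρ', ⟨hρ'0, hρ'2⟩, hyk⟩ := hA y ⟨hyK, mem_closedBall.2 (by linarith only [hρ])⟩
  set v : ℕ → ℂ := fun j => w * Complex.exp (2 * Real.pi / 3 * Complex.I) ^ j with hv
  have hvn : ∀ j, ‖v j‖ = 1 := fun j => by simp only [hv]; rw [norm_mul, hw, tyPod_om_norm, one_mul]
  have hyk' : dist y (x + ρ' • v k) ≤ ρ / 5000 := by
    refine hyk.trans (le_of_eq ?_); ring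
  have hd : dist x (x + ρ' • v k) = ρ' := by
    rw [dist_eq_norm]; simp [hvn, abs_of_nonneg hρ'0]
  have h1 : ρ ≤ ρ' + ρ / 5000 := by
    calc ρ = dist y x := rfl
      _ ≤ dist y (x + ρ' • v k) + dist (x + ρ' • v k) x := dist_triangle _ _ _
      _ ≤ ρ / 5000 + ρ' := by rw [dist_comm (x + ρ' • v k) x, hd]; linarith only [hyk']
      _ = ρ' + ρ / 5000 := by ring
  have h2 : ρ' ≤ ρ + ρ / 5000 := by
    calc ρ' = dist x (x + ρ' • v k) := hd.symm
      _ ≤ dist x y + dist y (x + ρ' • v k) := dist_triangle _ _ _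
      _ ≤ ρ + ρ / 5000 := by rw [dist_comm x y]; linarith only [hyk']
  refine ⟨v k, hvn k, ?_, ?_⟩
  · rintro z ⟨hzK, hzb⟩
    have hzy : dist z y ≤ ρ / 2 := mem_closedBall.1 hzb
    obtain ⟨j, σ, ⟨hσ0, hσ2⟩, hzj⟩ := hA z ⟨hzK, mem_closedBall.2 (by
      have := dist_triangle z y x
      linarith only [this, hzy, hρ])⟩
    have hzj' : dist z (x + σ • v j) ≤ ρ / 5000 := by
      refine hzj.trans (le_of_eq ?_); ring
    have hvv : ‖σ • v j - ρ' • v k‖ ≤ ρ / 2 + ρ / 5000 + ρ / 5000 := by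
      have e1 : ‖σ • v j - ρ' • v k‖ = dist (x + σ • v j) (x + ρ' • v k) := by
        rw [dist_eq_norm]; congr 1; ring
      rw [e1]
      have t1 := dist_triangle (x + σ • v j) z (x + ρ' • v k)
      have t2 := dist_triangle z y (x + ρ' • v k)
      rw [dist_comm (x + σ • v j) z] at t1
      linarith only [t2, t1, hzj', hzy, hyk']
    have hjk : Complex.exp (2 * Real.pi / 3 * Complex.I) ^ j =
        Complex.exp (2 * Real.pi / 3 * Complex.I) ^ k := by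
      rcases tyPod_sep w hw j k hσ0 hρ'0 with hh | hh
      · exact hh
      · exfalso
        have : ρ' ≤ ρ / 2 + ρ / 5000 + ρ / 5000 := hh.trans hvv
        linarith only [this, h1, hρ]
    have hvjk : v j = v k := by simp only [hv, hjk]
    refine ⟨σ - ρ', ?_⟩
    have e2 : dist (x + σ • v j) (y + ((σ - ρ' : ℝ) : ℂ) * v k) = dist y (x + ρ' • v k) := by
      rw [dist_comm, dist_eq_norm, dist_eq_norm, hvjk]
      congr 1
      simp only [Complex.real_smul]; push_cast; ring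
    calc dist z (y + ((σ - ρ' : ℝ) : ℂ) * v k)
        ≤ dist z (x + σ • v j) + dist (x + σ • v j) (y + ((σ - ρ' : ℝ) : ℂ) * v k) :=
          dist_triangle _ _ _
      _ ≤ ρ / 5000 + ρ / 5000 := by rw [e2]; linarith only [hzj', hyk']
      _ ≤ ρ / 1000 := by linarith only [hρ]
  · intro t ht
    have ht' := abs_le.1 ht
    obtain ⟨z, hzK, hz⟩ := hB k (ρ' + t) ⟨by linarith only [ht'.1, h1, hρ], by linarith only [ht'.2, h2, hρ]⟩
    refine ⟨z, hzK, ?_⟩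
    have hz' : dist z (x + (ρ' + t) • v k) ≤ ρ / 5000 := by
      refine hz.trans (le_of_eq ?_); ring
    have e2 : dist (x + (ρ' + t) • v k) (y + (t : ℂ) * v k) = dist y (x + ρ' • v k) := by
      rw [dist_comm, dist_eq_norm, dist_eq_norm]
      congr 1
      simp only [Complex.real_smul]; push_cast; ring
    calc dist z (y + (t : ℂ) * v k)
        ≤ dist z (x + (ρ' + t) • v k) + dist (x + (ρ' + t) • v k) (y + (t : ℂ) * v k) :=
          dist_triangle _ _ _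
      _ ≤ ρ / 5000 + ρ / 5000 := by rw [e2]; linarith only [hz', hyk']
      _ ≤ ρ / 1000 := by linarith only [hρ]

theorem near_tip_at {x : ℂ} {R ε δ r : ℝ} (hR1 : 1 ≤ R) (hRδ : 1 / R ≤ δ / 4) (hε0 : 0 < ε)
    (hε1 : ε ≤ δ / 4) (hε2 : ε ≤ 1 / (100 * R)) (hr : 0 < r)
    (hcl : ∃ L F, IsModel L F ∧ Close G K x r L F R ε)
    (h2 : Hn K x (1 / R * r) ≤ 3 / 2 * (1 / R * r)) : NearRay K x r δ := by
  have hR0 : 0 < R := lt_of_lt_of_le one_pos hR1
  obtain ⟨L, F, hmod, hc1, hc2, hc3⟩ := hcl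
  have hRinv : 0 < 1 / R := by positivity
  have hRinv1 : 1 / R ≤ 1 := by rw [div_le_one hR0]; exact hR1
  -- length at the small scale
  have hlen : Hn L 0 (1 / R) ≤ 8 / 5 * (1 / R) := by
    have h1 := (hc3 (1 / R) le_rfl (le_trans hRinv1 hR1)).2
    have h3 : Hn K x (1 / R * r) / r ≤ 3 / 2 * (1 / R) := by
      rw [div_le_iff₀ hr]; linarith only [h2]
    have h4 := (abs_le.mp h1).1
    have h5 : 1 / (100 * R) = 1 / 100 * (1 / R) := by field_simp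
    rw [h5] at hε2
    linarith only [h4, h3, hε2, hε0]
  obtain ⟨a, d, ha, hd0, hd, hL, hF⟩ := hmod.tip_of hRinv hlen
  have hdR : d ≤ 3 / 5 * (1 / R) := by linarith only [hd, hlen]
  have hdδ : d ≤ δ / 4 := by linarith only [hdR, hε1, hε0, hRδ]
  have hd1 : d ≤ 1 := by linarith only [hdR, hRinv1]
  subst hL
  exact tyTip_nearRay ha hr hd0 hR1 hε0 (by linarith only [hd, hlen, hε1, hε0, hRδ]) hc1 hc2

theorem near_tri_at {x : ℂ} {R ε δ r : ℝ} (hR2 : 2 ≤ R) (hRδ : 1 / R ≤ δ / 4) (hε0 : 0 < ε)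
    (hε1 : ε ≤ δ / 4) (hε2 : ε ≤ 1 / R / 10) (hr : 0 < r)
    (hcl : ∃ L F, IsModel L F ∧ Close G K x r L F R ε)
    (ht1 : 5 / 2 * (1 / R * r) ≤ Hn K x (1 / R * r)) : NearTripod K x r δ := by
  have hR0 : 0 < R := by linarith
  obtain ⟨L, F, hL, hC1, hC2, hC3⟩ := hcl
  have hs0 : 0 < 1 / R := by positivity
  have hs1 : 1 / R ≤ 1 / 2 := one_div_le_one_div_of_le (by norm_num) hR2
  have hh := (hC3 (1 / R) le_rfl (by linarith only [hs1, hε2, hε0, hR2])).2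
  have h5 : 5 / 2 * (1 / R) ≤ Hn K x (1 / R * r) / r := by
    rw [le_div_iff₀ hr]; linarith only [ht1]
  have h6 : 12 / 5 * (1 / R) ≤ Hn L 0 (1 / R) := by
    have := (abs_le.mp hh).2
    linarith only [this, h5, hε2]
  obtain ⟨a, b, c, d, hT, hd0, hd1, -, rfl, hF⟩ := hL.tri_of hs0 h6
  have hdR : d ≤ 1 / R := by linarith only [hd1, hε2, hε0]
  have hdδ : d ≤ δ / 4 := hdR.trans hRδ
  have hd2 : d ≤ 1 / 2 := hdR.trans hs1
  exact tyTri_near hT hd0 (by linarith only [hs1, hε2, hε0, hR2]) (by linarith only [hd1, hs1, hε2, hε0, hR2]) hε0 (by linarith only [hd1, hε2, hε0, hRδ]) hr hC1 hC2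


/-- **Uniform scales.** At a point and a scale at which the length of `K` is intermediate, `K` is
flat at all smaller scales; the points at which it is not intermediate at any scale above `σ` form
a cluster of diameter at most `Λ σ`. -/
theorem unif_scales (M : ℝ) {R₀ : ℝ} (hR₀ : 0 < R₀) :
    ∃ a c Λ : ℝ, 0 < a ∧ a ≤ R₀ / 16 ∧ 0 < c ∧ c ≤ 1 ∧ 1 ≤ Λ ∧
    ∀ (Ω : Set ℂ) (g u : ℂ → ℝ) (G : ℂ → ℂ) (K : Set ℂ) (x₀ : ℂ), MS Ω g u G K M x₀ R₀ →
      (∀ y ∈ K ∩ closedBall x₀ R₀, ∀ r, 0 < r → r ≤ a → Mid K y r → ∀ s, 0 < s → s ≤ c * r →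
        LineClose G K y s (1 / 1000)) ∧
      ∀ x ∈ K ∩ closedBall x₀ R₀, ∀ y ∈ K ∩ closedBall x₀ R₀, ∀ σ, 0 < σ → dist y x ≤ a →
        (∀ r, σ < r → r ≤ a → ¬ Mid K x r) → (∀ r, σ < r → r ≤ a → ¬ Mid K y r) →
          dist y x ≤ Λ * σ := by
  obtain ⟨ρ, hρ, H⟩ := exists_ACl M R₀
  obtain ⟨r₀, hr₀, c, hc, hc1, hflat⟩ := flat_unif hρ (δ := 1 / 1000) (by norm_num)
  obtain ⟨δ, hδ⟩ : ∃ δ : ℝ, δ = 1 / 10000 := ⟨_, rfl⟩
  obtain ⟨R, hR⟩ : ∃ R : ℝ, R = 100000 := ⟨_, rfl⟩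
  obtain ⟨ε, hε⟩ : ∃ ε : ℝ, ε = 1 / (100 * R) := ⟨_, rfl⟩
  have hR0 : 0 < R := by rw [hR]; norm_num
  have hε0 : 0 < ε := by rw [hε]; positivity
  have e1 : 1 / R ≤ δ / 4 := by rw [hR, hδ]; norm_num
  have e2 : ε ≤ δ / 4 := by rw [hε, hR, hδ]; norm_num
  have e3 : ε ≤ 1 / R / 10 := by rw [hε, hR]; norm_num
  obtain ⟨a, ha⟩ : ∃ a, a = min (min r₀ (ρ 20 (1 / 100))) (min (ρ R ε / 2) (R₀ / 16)) := ⟨_, rfl⟩
  have hp1 : 0 < ρ 20 (1 / 100) := hρ _ _ (by norm_num) (by norm_num)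
  have hp2 : 0 < ρ R ε := hρ _ _ (by rw [hR]; norm_num) hε0
  have ha0 : 0 < a := by rw [ha]; positivity
  have a1 : a ≤ r₀ := by rw [ha]; exact (min_le_left _ _).trans (min_le_left _ _)
  have a2 : a ≤ ρ 20 (1 / 100) := by rw [ha]; exact (min_le_left _ _).trans (min_le_right _ _)
  have a3 : a ≤ ρ R ε / 2 := by rw [ha]; exact (min_le_right _ _).trans (min_le_left _ _)
  have a4 : a ≤ R₀ / 16 := by rw [ha]; exact (min_le_right _ _).trans (min_le_right _ _)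
  refine ⟨a, c, R, ha0, a4, hc, hc1, by rw [hR]; norm_num, ?_⟩
  intro Ω g u G K x₀ h
  have hA := H Ω g u G K x₀ h
  refine ⟨fun y hy r hr hra hm s hs hsr => hflat hA y hy r hr (hra.trans a1) hm s hs hsr, ?_⟩
  intro x hx y hy σ hσ hda hnx hny
  by_contra hlt
  push Not at hlt
  have hD : 0 < dist y x := lt_trans (by positivity) hlt
  have hyx : y ≠ x := dist_pos.1 hD
  have hRσ : 0 < R * σ := by positivity
  -- `K` is flat at `y` at the scale `dist y x`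
  have key : (∃ e : ℂ, ‖e‖ = 1 ∧
      (∀ z ∈ K ∩ closedBall y (dist y x / 2), ∃ t : ℝ, dist z (y + t * e) ≤ dist y x / 1000) ∧
      ∀ t : ℝ, |t| ≤ dist y x / 2 → ∃ z ∈ K, dist z (y + t * e) ≤ dist y x / 1000) → False := by
    intro hl
    have hM := hA.mid_of_line y hy (dist y x) hD (hda.trans a2) hl
    refine hny (dist y x / 40) ?_ (by linarith only [hda, hD]) hM
    rw [hR] at hlt
    linarith only [hlt, hσ]
  have hsc : 1 / R * (2 * dist y x) = 2 * dist y x / R := by ring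
  have hsc1 : σ < 1 / R * (2 * dist y x) := by
    rw [hsc, lt_div_iff₀ hR0]
    have : σ * R = R * σ := by ring
    linarith only [hlt, this, hRσ]
  have hsc2 : 1 / R * (2 * dist y x) ≤ a := by
    rw [hsc, div_le_iff₀ hR0, hR]
    linarith only [hda, hD]
  have hcl := hA R ε (by rw [hR]; norm_num) hε0 x hx (2 * dist y x) (by positivity)
    (by linarith only [hda, a3])
  have hnm := hnx _ hsc1 hsc2
  have hor : Hn K x (1 / R * (2 * dist y x)) ≤ 3 / 2 * (1 / R * (2 * dist y x)) ∨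
      5 / 2 * (1 / R * (2 * dist y x)) ≤ Hn K x (1 / R * (2 * dist y x)) := by
    unfold Mid at hnm
    by_contra hcon
    push Not at hcon
    exact hnm hcon
  rcases hor with h1 | h1
  · have h2 := near_tip_at (by rw [hR]; norm_num) e1 hε0 e2 hε.le (by positivity) hcl h1
    rw [hδ] at h2
    exact key (away_of_ray_at hy.1 hyx h2)
  · have h2 := near_tri_at (by rw [hR]; norm_num) e1 hε0 e2 e3 (by positivity) hcl h1
    rw [hδ] at h2
    exact key (away_of_tripod_at hy.1 hyx h2)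

end Vale.Agent.P128.Q1
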