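import Vale.Agent.P128.H445.Weak
import Vale.Agent.P128.H757.Global
import Vale.Agent.P128.H861.Unif5

/-! The uniform weak `L⁴` estimate and the uniform `L^p` estimates for the gradient. -/

open MeasureTheory Set Metric Filter
open scoped ENNReal NNReal Topology Real

namespace Vale.Agent.P128.H445

open Vale.Agent.P128 Vale.Agent.P128.H861 Vale.Agent.P128.H757

variable {Ω : Set ℂ} {g u : ℂ → ℝ} {G : ℂ → ℂ} {K : Set ℂ}

theorem congr_weak {q : ℕ} {S : Set ℂ} {G' : ℂ → ℂ} {A : ℝ} (hS : S ⊆ Ω)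
    (hG : G =ᵐ[volume.restrict (Ω \ K)] G') {t : ℝ}
    (h : volume {z ∈ S \ K | t < ‖G' z‖} ≤ ENNReal.ofReal (A / t ^ q)) :
    volume {z ∈ S \ K | t < ‖G z‖} ≤ ENNReal.ofReal (A / t ^ q) := by
  refine le_trans (measure_mono_ae ?_) h
  have h1 : ∀ᵐ z ∂(volume.restrict (Ω \ K)), G z = G' z := hG
  have h2 : ∀ᵐ z, z ∈ Ω \ K → G z = G' z := ae_imp_of_ae_restrict h1
  filter_upwards [h2] with z hz hzS
  have hz1 : z ∈ S \ K := hzS.1
  have hz2 : t < ‖G z‖ := hzS.2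
  have hz3 := hz ⟨hS hz1.1, hz1.2⟩
  exact ⟨hz1, by rw [← hz3]; exact hz2⟩

/-- **The uniform weak `L⁴` estimate.** -/
theorem weak4_unif (M R : ℝ) (hR : 0 < R) : ∃ A : ℝ, 0 < A ∧
    ∀ (Ω : Set ℂ) (g u : ℂ → ℝ) (G : ℂ → ℂ) (K : Set ℂ) (x₀ : ℂ), IsOpen Ω → ball x₀ R ⊆ Ω →
      MemLp g ⊤ (volume.restrict Ω) → (∀ᵐ z ∂(volume.restrict Ω), |g z| ≤ M) →
      (∀ᵐ z ∂(volume.restrict (ball x₀ R)), |u z| ≤ M) →
      IsMinimizer Ω g u G K → IsReduced Ω K →
        ∀ t : ℝ, 0 < t →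
          volume {z ∈ ball x₀ (R / 2) \ K | t < ‖G z‖} ≤ ENNReal.ofReal (A / t ^ 4) := by
  obtain ⟨M', hM'⟩ : ∃ M', M' = max 1 M := ⟨_, rfl⟩
  obtain ⟨R', hR'⟩ : ∃ R', R' = min 1 (R / 16) := ⟨_, rfl⟩
  have hR'0 : 0 < R' := by rw [hR']; exact lt_min one_pos (by positivity)
  have hR'1 : R' ≤ 1 := by rw [hR']; exact min_le_left _ _
  have hR'2 : R' ≤ R / 16 := by rw [hR']; exact min_le_right _ _
  have hM'1 : 1 ≤ M' := by rw [hM']; exact le_max_left _ _
  obtain ⟨r₀, A, hr₀, hA, H⟩ := weak_pt M' hM'1 hR'0 hR'1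
  obtain ⟨s, hs⟩ : ∃ s, s = min r₀ (R / 2) := ⟨_, rfl⟩
  have hs0 : 0 < s := by rw [hs]; exact lt_min hr₀ (by positivity)
  obtain ⟨T, hTs, hTf, hTc⟩ := (isCompact_closedBall (0 : ℂ) (R / 2)).finite_cover_balls hs0
  refine ⟨hTf.toFinset.card * A + 1, by positivity, ?_⟩
  intro Ω g u G K x₀ hΩ hball hg hgM huM hmin hred t ht
  have hloc : ∀ p ∈ T, volume {z ∈ ball (p + x₀) s \ K | t < ‖G z‖} ≤
      ENNReal.ofReal (A / t ^ 4) := by
    intro p hp
    have hp1 : dist (p + x₀) x₀ ≤ R / 2 := by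
      rw [dist_eq_norm, add_sub_cancel_right]
      exact mem_closedBall_zero_iff.1 (hTs hp)
    have hsub : ball (p + x₀) (R / 2) ⊆ ball x₀ R := ball_subset_ball' (by linarith)
    obtain ⟨M₀, g', u₁, G₁, N, hG₁, hu₁, hM₀⟩ := normalize' hΩ hg hmin
    have hM₀' : M₀ ≤ M' := by
      refine hM₀ M' (by rw [hM']; exact zero_le_one.trans (le_max_left _ _)) ?_
      filter_upwards [hgM] with z hz
      exact hz.trans (by rw [hM']; exact le_max_right _ _)
    obtain ⟨u', G', N', hc1, hG', hb', -, hGG⟩ := Q1.nice_rep N (x := p + x₀) (R₁ := R / 2) hM₀' (by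
      have e1 := ae_mono (Measure.restrict_mono hsub le_rfl) huM
      have e2 := ae_mono (Measure.restrict_mono (hsub.trans hball) le_rfl) hu₁
      filter_upwards [e1, e2] with z h1 h2
      rw [← h2]
      exact h1.trans (by rw [hM']; exact le_max_right _ _))
    have hcb : closedBall (p + x₀) (4 * R') ⊆ ball (p + x₀) (R / 2) :=
      closedBall_subset_ball (by linarith)
    have hMS : Q1.MS Ω g' u' G' K M' (p + x₀) R' :=
      { N := N'
        red := hred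
        R0 := hR'0
        R1 := hR'1
        M1 := hM'1
        sub := hcb.trans (hsub.trans hball)
        bd := fun z hz => hb' z (hcb hz)
        c1 := hc1
        Gu := hG' }
    have h1 := H Ω g' u' G' K (p + x₀) hMS t ht
    have h2 : {z ∈ ball (p + x₀) s \ K | t < ‖G' z‖} ⊆
        {z ∈ ball (p + x₀) r₀ \ K | t < ‖G' z‖} := fun z hz =>
      ⟨⟨ball_subset_ball (by rw [hs]; exact min_le_left _ _) hz.1.1, hz.1.2⟩, hz.2⟩
    refine congr_weak (Ω := Ω) ?_ (hG₁.trans (ae_restrict_of_ae hGG)) ((measure_mono h2).trans h1)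
    exact (ball_subset_ball (by rw [hs]; exact min_le_right _ _)).trans (hsub.trans hball)
  have hcov : {z ∈ ball x₀ (R / 2) \ K | t < ‖G z‖} ⊆
      ⋃ p ∈ hTf.toFinset, {z ∈ ball (p + x₀) s \ K | t < ‖G z‖} := by
    rintro z ⟨⟨hz, hzK⟩, hzt⟩
    have h1 : z - x₀ ∈ closedBall (0 : ℂ) (R / 2) := by
      rw [mem_closedBall, dist_zero_right, ← dist_eq_norm]
      exact (mem_ball.1 hz).le
    obtain ⟨p, hp, hzp⟩ := mem_iUnion₂.1 (hTc h1)
    refine mem_iUnion₂.2 ⟨p, hTf.mem_toFinset.2 hp, ⟨?_, hzK⟩, hzt⟩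
    rw [mem_ball, dist_eq_norm] at hzp ⊢
    rwa [show z - (p + x₀) = z - x₀ - p by ring]
  calc volume {z ∈ ball x₀ (R / 2) \ K | t < ‖G z‖}
      ≤ volume (⋃ p ∈ hTf.toFinset, {z ∈ ball (p + x₀) s \ K | t < ‖G z‖}) := measure_mono hcov
    _ ≤ ∑ p ∈ hTf.toFinset, volume {z ∈ ball (p + x₀) s \ K | t < ‖G z‖} :=
        measure_biUnion_finset_le _ _
    _ ≤ ∑ p ∈ hTf.toFinset, ENNReal.ofReal (A / t ^ 4) :=
        Finset.sum_le_sum fun p hp => hloc p (hTf.mem_toFinset.1 hp)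
    _ = hTf.toFinset.card * ENNReal.ofReal (A / t ^ 4) := by
        rw [Finset.sum_const, nsmul_eq_mul]
    _ = ENNReal.ofReal (hTf.toFinset.card * (A / t ^ 4)) := by
        rw [ENNReal.ofReal_mul (Nat.cast_nonneg _), ENNReal.ofReal_natCast]
    _ ≤ _ := by
        refine ENNReal.ofReal_le_ofReal ?_
        rw [← mul_div_assoc]
        gcongr
        linarith

/-- From a weak estimate to a strong one, with an explicit bound. -/
theorem lintegral_of_weak {S : Set ℂ} (hS : MeasurableSet S) {f : ℂ → ℝ}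
    (hfm : AEStronglyMeasurable f (volume.restrict S)) (hf0 : ∀ z, 0 ≤ f z) {A p : ℝ} {q : ℕ}
    (hp : 0 < p)
    (h : ∀ t : ℝ, 0 < t → volume {z ∈ S | t < f z} ≤ ENNReal.ofReal (A / t ^ q)) :
    ∫⁻ z in S, ENNReal.ofReal (f z ^ p) ≤
      ENNReal.ofReal p * (volume S * (∫⁻ t in Ioc (0 : ℝ) 1, ENNReal.ofReal (t ^ (p - 1))) +
        ∫⁻ t in Ioi (1 : ℝ), ENNReal.ofReal (A * t ^ (p - 1 - q))) := by
  have hm : ∀ t : ℝ, (volume.restrict S) {z | t < f z} = volume {z ∈ S | t < f z} := by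
    intro t
    rw [Measure.restrict_apply' hS]
    congr 1
    ext z
    simp only [mem_inter_iff, mem_ofPred_eq]
    tauto
  rw [lintegral_rpow_eq_lintegral_meas_lt_mul _ (Eventually.of_forall hf0) hfm.aemeasurable hp]
  gcongr
  rw [← Ioc_union_Ioi_eq_Ioi (zero_le_one (α := ℝ))]
  refine (lintegral_union_le _ _ _).trans (add_le_add ?_ ?_)
  · calc ∫⁻ t in Ioc (0 : ℝ) 1, (volume.restrict S) {z | t < f z} * ENNReal.ofReal (t ^ (p - 1))
        ≤ ∫⁻ t in Ioc (0 : ℝ) 1, volume S * ENNReal.ofReal (t ^ (p - 1)) := by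
          refine lintegral_mono fun t => ?_
          refine mul_le_mul' ?_ le_rfl
          rw [hm]
          exact measure_mono fun z hz => hz.1
      _ ≤ _ := (lintegral_const_mul _ (by fun_prop)).le
  · refine setLIntegral_mono' measurableSet_Ioi fun t ht => ?_
    have ht1 : (1 : ℝ) < t := ht
    have ht0 : 0 < t := one_pos.trans ht1
    rw [hm]
    calc volume {z ∈ S | t < f z} * ENNReal.ofReal (t ^ (p - 1))
        ≤ ENNReal.ofReal (A / t ^ q) * ENNReal.ofReal (t ^ (p - 1)) := by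
          gcongr
          exact h t ht0
      _ = ENNReal.ofReal (A * t ^ (p - 1 - q)) := by
          rw [← ENNReal.ofReal_mul' (by positivity)]
          congr 1
          rw [Real.rpow_sub ht0 (p - 1), Real.rpow_natCast]
          ring

end Vale.Agent.P128.H445
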