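import Vale.Agent.P128.H445.Glob

/-! Uniform `L^p` estimates for the gradient, `p < 4`. -/

open MeasureTheory Set Metric Filter
open scoped ENNReal NNReal Topology Real

namespace Vale.Agent.P128.H445

open Vale.Agent.P128 Vale.Agent.P128.H861 Vale.Agent.P128.H757

theorem lint_low {p : ℝ} (hp : 0 < p) :
    ∫⁻ t in Ioc (0 : ℝ) 1, ENNReal.ofReal (t ^ (p - 1)) < ⊤ := by
  have hi : IntegrableOn (fun t : ℝ => t ^ (p - 1)) (Ioc 0 1) := by
    have := intervalIntegral.intervalIntegrable_rpow' (a := 0) (b := 1)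
      (show -1 < p - 1 by linarith)
    rwa [intervalIntegrable_iff_integrableOn_Ioc_of_le zero_le_one] at this
  exact lt_of_le_of_lt (lintegral_mono fun t => ofReal_le_enorm' _) hi.2

theorem lint_high {p A : ℝ} (hp : p < 4) :
    ∫⁻ t in Ioi (1 : ℝ), ENNReal.ofReal (A * t ^ (p - 1 - (4 : ℕ))) < ⊤ := by
  have hi : IntegrableOn (fun t : ℝ => A * t ^ (p - 1 - (4 : ℕ))) (Ioi 1) :=
    (integrableOn_Ioi_rpow_of_lt (by push_cast; linarith) one_pos).const_mul A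
  exact lt_of_le_of_lt (lintegral_mono fun t => ofReal_le_enorm' _) hi.2

/-- **The uniform `L^p` estimate.** -/
theorem lp_unif (M R p : ℝ) (hR : 0 < R) (hp : 0 < p) (hp4 : p < 4) : ∃ B : ℝ,
    ∀ (Ω : Set ℂ) (g u : ℂ → ℝ) (G : ℂ → ℂ) (K : Set ℂ) (x₀ : ℂ), IsOpen Ω → ball x₀ R ⊆ Ω →
      MemLp g ⊤ (volume.restrict Ω) → (∀ᵐ z ∂(volume.restrict Ω), |g z| ≤ M) →
      (∀ᵐ z ∂(volume.restrict (ball x₀ R)), |u z| ≤ M) →
      IsMinimizer Ω g u G K → IsReduced Ω K →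
        ∫⁻ z in ball x₀ (R / 2) \ K, ENNReal.ofReal (‖G z‖ ^ p) ≤ ENNReal.ofReal B := by
  have hπ := Real.pi_pos
  obtain ⟨A, hA, H⟩ := weak4_unif M R hR
  obtain ⟨b, hb⟩ : ∃ b, b = ENNReal.ofReal p * (ENNReal.ofReal (π * (R / 2) ^ 2) *
    (∫⁻ t in Ioc (0 : ℝ) 1, ENNReal.ofReal (t ^ (p - 1))) +
        ∫⁻ t in Ioi (1 : ℝ), ENNReal.ofReal (A * t ^ (p - 1 - (4 : ℕ)))) := ⟨_, rfl⟩
  have hbt : b ≠ ⊤ := by
    rw [hb]
    exact (ENNReal.mul_lt_top ENNReal.ofReal_lt_top (ENNReal.add_lt_top.2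
      ⟨ENNReal.mul_lt_top ENNReal.ofReal_lt_top (lint_low hp), lint_high hp4⟩)).ne
  refine ⟨b.toReal, ?_⟩
  intro Ω g u G K x₀ hΩ hball hg hgM huM hmin hred
  have hsub : ball x₀ (R / 2) ⊆ Ω := (ball_subset_ball (by linarith)).trans hball
  have hK := hmin.1.measurableSet hΩ
  have hS : MeasurableSet (ball x₀ (R / 2) \ K) := measurableSet_ball.diff hK
  have hm : AEStronglyMeasurable (fun z => ‖G z‖) (volume.restrict (ball x₀ (R / 2) \ K)) :=
    (hmin.1.grad_memLp.1.mono_measure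
      (Measure.restrict_mono (sdiff_subset_sdiff_left hsub) le_rfl)).norm
  have h1 := lintegral_of_weak (q := 4) hS hm (fun z => norm_nonneg _) hp
    (H Ω g u G K x₀ hΩ hball hg hgM huM hmin hred)
  rw [ENNReal.ofReal_toReal hbt, hb]
  refine h1.trans ?_
  have h2 : volume (ball x₀ (R / 2) \ K) ≤ ENNReal.ofReal (π * (R / 2) ^ 2) :=
    (measure_mono sdiff_subset).trans (volume_ball' x₀ (by positivity)).le
  gcongr

end Vale.Agent.P128.H445
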