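import Vale.Agent.P128.H445.Flat

/-! Pointwise bounds for the gradient. -/

open MeasureTheory Set Metric Filter
open scoped ENNReal NNReal Topology Real

namespace Vale.Agent.P128.Q1

open Vale.Agent.P128

variable {Ω : Set ℂ} {g u : ℂ → ℝ} {G : ℂ → ℂ} {K : Set ℂ} {M : ℝ} {x₀ : ℂ} {R₀ : ℝ}

theorem MS.sq_intOn (h : MS Ω g u G K M x₀ R₀) (S : Set ℂ) :
    IntegrableOn (fun z => ‖G z‖ ^ 2) S := h.N.G_memLp.norm.integrable_sq.integrableOn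

theorem MS.En_le_of_subset (h : MS Ω g u G K M x₀ R₀) {y z : ℂ} {s t : ℝ}
    (hst : ball z s ⊆ ball y t) : En G z s ≤ En G y t :=
  setIntegral_mono_set (h.sq_intOn _)
    (Eventually.of_forall fun _ => by positivity) hst.eventuallyLE

/-- the trivial upper bound -/
theorem MS.upper (h : MS Ω g u G K M x₀ R₀) {y : ℂ} (hy : dist y x₀ ≤ 2 * R₀) {s : ℝ}
    (hs : 0 < s) (hsR : s ≤ R₀) : En G y s + Hn K y s ≤ 10 * π * M ^ 2 * s := by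
  have hM := h.M1
  have hR0 := h.R0
  have hR1 := h.R1
  have hπ := Real.pi_pos
  have h1 := h.N.circle_bound (x := y) (s := s) (R := 2 * R₀) hs (by linarith)
    ((closedBall_subset_closedBall' (by linarith)).trans h.sub)
  have h2 := Un_nonneg g u y s
  have hM2 : 1 ≤ M ^ 2 := by nlinarith
  have h3 : 2 * π * s ≤ 2 * π * s * M ^ 2 := le_mul_of_one_le_right (by positivity) hM2
  have h4 : π * M ^ 2 * s ^ 2 ≤ π * M ^ 2 * s := by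
    have : s ^ 2 ≤ s := by nlinarith
    gcongr
  have h5 : 0 ≤ π * M ^ 2 * s := by positivity
  nlinarith

theorem dec_arith {E ρ r P : ℝ} (hρ : 0 < ρ) (hρ1 : ρ / 16 ≤ 1) (hρr : ρ ≤ r) (hP : 0 ≤ P)
    (hE : E ≤ 10 * P * (ρ / 16)) :
    E + 200 * (6 * P) * (ρ / 16) ^ 2 ≤ 2000 * P * r := by
  have e1 : (ρ / 16) ^ 2 ≤ ρ / 16 := by
    rw [sq]
    exact mul_le_of_le_one_left (by positivity) hρ1
  have e2 : 200 * (6 * P) * (ρ / 16) ^ 2 ≤ 200 * (6 * P) * (ρ / 16) := by gcongr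
  have e5 : P * ρ ≤ P * r := by gcongr
  have e6 : 0 ≤ P * ρ := by positivity
  linarith

/-- flatness near a point of `K` -/
theorem zone_of (h : MS Ω g u G K M x₀ R₀) {a c : ℝ} (haR : a ≤ R₀ / 16) (hc : 0 < c)
    (hc1 : c ≤ 1)
    (h1 : ∀ y ∈ K ∩ closedBall x₀ R₀, ∀ r, 0 < r → r ≤ a → Mid K y r → ∀ s, 0 < s → s ≤ c * r →
        LineClose G K y s (1 / 1000))
    {y : ℂ} (hy : y ∈ K ∩ closedBall x₀ (R₀ / 2)) {r : ℝ} (hr : 0 < r) (hra : r ≤ a)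
    (hm : Mid K y r) :
    ∀ y' ∈ K, dist y' y ≤ c * (c * r) / 100 → ∀ t, 0 < t → t ≤ c * (c * r) / 100 →
        LineClose G K y' t (1 / 1000) := by
  have hfin : μH[1] K < ⊤ := h.N.min.1.finite
  have hR0 := h.R0
  have hyR : dist y x₀ ≤ R₀ / 2 := mem_closedBall.1 hy.2
  have hyK : y ∈ K ∩ closedBall x₀ R₀ := ⟨hy.1, mem_closedBall.2 (by linarith)⟩
  obtain ⟨ρ₁, hρ₁⟩ : ∃ ρ₁, ρ₁ = c * r := ⟨_, rfl⟩
  rw [← hρ₁]
  have hρ₁0 : 0 < ρ₁ := by rw [hρ₁]; positivity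
  have hρ₁r : ρ₁ ≤ r := by rw [hρ₁]; exact mul_le_of_le_one_left hr.le hc1
  have hcρ : c * ρ₁ ≤ ρ₁ := mul_le_of_le_one_left hρ₁0.le hc1
  have hcρ0 : 0 < c * ρ₁ := by positivity
  have hl1 : ∀ t, 0 < t → t ≤ ρ₁ → LineClose G K y t (1 / 1000) := fun t ht htρ =>
    h1 y hyK r hr hra hm t ht (by rw [← hρ₁]; exact htρ)
  intro y' hy' hyy t ht htρ
  have e1 := (hl1 (51 / 100 * ρ₁) (by positivity) (by linarith)).2.2
  have e2 := (hl1 (49 / 100 * ρ₁) (by positivity) (by linarith)).2.2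
  have hmid : Mid K y' (ρ₁ / 2) := by
    refine tyLine_mid (x := y) hfin hρ₁0 ?_ ?_ (by linarith)
    · refine e1.trans ?_
      linarith
    · refine e2.trans ?_
      linarith
  refine h1 y' ⟨hy', mem_closedBall.2 ?_⟩ (ρ₁ / 2) (by positivity) (by linarith) hmid t ht
    (by linarith)
  have := dist_triangle y' y x₀
  linarith

/-- **Decay of the energy**, with uniform scales. -/
theorem unif_decay (M : ℝ) (hM1 : 1 ≤ M) {R₀ : ℝ} (hR₀ : 0 < R₀) (hR1 : R₀ ≤ 1) :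
    ∃ a κ C Λ : ℝ, 0 < a ∧ a ≤ R₀ / 16 ∧ 0 < κ ∧ κ ≤ 1 ∧ 1 ≤ C ∧ 1 ≤ Λ ∧
    ∀ (Ω : Set ℂ) (g u : ℂ → ℝ) (G : ℂ → ℂ) (K : Set ℂ) (x₀ : ℂ), MS Ω g u G K M x₀ R₀ →
      (∀ y ∈ K ∩ closedBall x₀ (R₀ / 2), ∀ r, 0 < r → r ≤ a → Mid K y r → ∀ s, 0 < s →
        s ≤ κ * r → En G y s ≤ C * (s / r) ^ (7 / 4 : ℝ) * r) ∧
      ∀ x ∈ K ∩ closedBall x₀ R₀, ∀ y ∈ K ∩ closedBall x₀ R₀, ∀ σ, 0 < σ → dist y x ≤ a →
        (∀ r, σ < r → r ≤ a → ¬ Mid K x r) → (∀ r, σ < r → r ≤ a → ¬ Mid K y r) →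
          dist y x ≤ Λ * σ := by
  have hπ := Real.pi_pos
  obtain ⟨a, c, Λ, ha, haR, hc, hc1, hΛ, H⟩ := unif_scales M hR₀
  obtain ⟨B, hB⟩ : ∃ B, B = (1600 / c ^ 2) ^ (7 / 4 : ℝ) := ⟨_, rfl⟩
  have hB0 : 0 < B := by rw [hB]; positivity
  have hP : 0 ≤ π * M ^ 2 := by positivity
  have hc2 : c ^ 2 ≤ 1 := pow_le_one₀ hc.le hc1
  refine ⟨a, c ^ 2 / 1600, 1 + 4 * B * (2000 * (π * M ^ 2)), Λ, ha, haR, by positivity, by linarith,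
    ?_, hΛ, ?_⟩
  · have : 0 ≤ 4 * B * (2000 * (π * M ^ 2)) := by positivity
    linarith
  intro Ω g u G K x₀ h
  obtain ⟨h1, h2⟩ := H Ω g u G K x₀ h
  refine ⟨?_, h2⟩
  intro y hy r hr hra hm s hs hsr
  have hyR : dist y x₀ ≤ R₀ / 2 := mem_closedBall.1 hy.2
  have hnear := zone_of h haR hc hc1 h1 hy hr hra hm
  obtain ⟨ρ₂, hρ₂⟩ : ∃ ρ₂, ρ₂ = c * (c * r) / 100 := ⟨_, rfl⟩
  rw [← hρ₂] at hnear
  have hρ₂0 : 0 < ρ₂ := by rw [hρ₂]; positivity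
  have hρ₂r : ρ₂ ≤ r := by
    have e1 : ρ₂ = c ^ 2 * r / 100 := by rw [hρ₂]; ring
    have e2 : c ^ 2 * r ≤ 1 * r := by gcongr
    linarith
  have hΩ : closedBall y (2 * ρ₂) ⊆ Ω :=
    (closedBall_subset_closedBall' (by linarith)).trans h.sub
  have Z : FlatZone K y ρ₂ (1 / 1000) :=
    ⟨hρ₂0, h.N.min.1.isCompact_inter hΩ, fun y' hy' hyy t ht htρ =>
      (hnear y' hy' hyy t ht htρ).lineAt⟩
  have hub : ∀ z ∈ ball y (2 * ρ₂), |u z| ≤ M := fun z hz => h.bd z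
    ((ball_subset_closedBall.trans (closedBall_subset_closedBall' (by linarith))) hz)
  have hH : ∀ y' ∈ K, dist y' y ≤ ρ₂ → ∀ t, 0 < t → t ≤ ρ₂ → Hn K y' t ≤ (2 + 1 / 100) * t := by
    intro y' hy' hyy t ht htρ
    have := (abs_le.1 (hnear y' hy' hyy t ht htρ).2.2).2
    linarith
  have hκ : c ^ 2 / 1600 * r = ρ₂ / 16 := by rw [hρ₂]; ring
  rw [hκ] at hsr
  have hd := mn_decay7 h.N Z le_rfl hΩ hub hH hy.1 (by rw [dist_self]; positivity) hs hsr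
  have hup := h.upper (y := y) (s := ρ₂ / 16) (by linarith) (by positivity) (by linarith)
  have hHn := Hn_nonneg K y (ρ₂ / 16)
  have hE : En G y (ρ₂ / 16) + 200 * (6 * (π * M ^ 2)) * (ρ₂ / 16) ^ 2 ≤
      2000 * (π * M ^ 2) * r := by
    refine dec_arith hρ₂0 (by linarith) hρ₂r hP ?_
    have e1 : 10 * π * M ^ 2 * (ρ₂ / 16) = 10 * (π * M ^ 2) * (ρ₂ / 16) := by ring
    rw [e1] at hup
    linarith
  have hpow : (s / (ρ₂ / 16)) ^ (7 / 4 : ℝ) = B * (s / r) ^ (7 / 4 : ℝ) := by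
    rw [hB, ← Real.mul_rpow (by positivity) (by positivity)]
    congr 1
    rw [← hκ]
    field_simp
  have e1 : 200 * (6 * π * M ^ 2) * (ρ₂ / 16) ^ 2 = 200 * (6 * (π * M ^ 2)) * (ρ₂ / 16) ^ 2 := by
    ring
  rw [hpow, e1] at hd
  have hsr0 : 0 ≤ (s / r) ^ (7 / 4 : ℝ) := by positivity
  calc En G y s ≤ _ := hd
    _ ≤ 4 * (B * (s / r) ^ (7 / 4 : ℝ)) * (2000 * (π * M ^ 2) * r) := by gcongr
    _ = 4 * B * (2000 * (π * M ^ 2)) * ((s / r) ^ (7 / 4 : ℝ) * r) := by ring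
    _ ≤ (1 + 4 * B * (2000 * (π * M ^ 2))) * ((s / r) ^ (7 / 4 : ℝ) * r) := by
      gcongr
      linarith
    _ = _ := by ring

end Vale.Agent.P128.Q1
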