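import Vale.Agent.P128.H445.Pt

/-! Pointwise bounds for the gradient. -/

open MeasureTheory Set Metric Filter
open scoped ENNReal NNReal Topology Real

namespace Vale.Agent.P128.Q1

open Vale.Agent.P128

variable {Ω : Set ℂ} {g u : ℂ → ℝ} {G : ℂ → ℂ} {K : Set ℂ} {M : ℝ} {x₀ : ℂ} {R₀ : ℝ}

theorem pt_alg {X c E M d : ℝ} (hE : 0 ≤ E) (hd : 0 < d) (hX : 0 ≤ X)
    (h : X ≤ c * (√E / (d / 2) + M * (d / 2))) :
    X ^ 2 ≤ 2 * c ^ 2 * (4 * E / d ^ 2 + M ^ 2 * d ^ 2 / 4) := by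
  have h1 : X ^ 2 ≤ (c * (√E / (d / 2) + M * (d / 2))) ^ 2 := pow_le_pow_left₀ hX h 2
  refine h1.trans ?_
  have e1 : (√E / (d / 2)) ^ 2 = 4 * E / d ^ 2 := by
    rw [div_pow, Real.sq_sqrt hE]
    field_simp
    ring
  have e2 : (c * (√E / (d / 2) + M * (d / 2))) ^ 2 =
      c ^ 2 * (√E / (d / 2) + M * (d / 2)) ^ 2 := by ring
  have e3 : (√E / (d / 2) + M * (d / 2)) ^ 2 ≤ 2 * ((√E / (d / 2)) ^ 2 + (M * (d / 2)) ^ 2) := by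
    nlinarith [sq_nonneg (√E / (d / 2) - M * (d / 2))]
  have e4 : (M * (d / 2)) ^ 2 = M ^ 2 * d ^ 2 / 4 := by ring
  rw [e1, e4] at e3
  rw [e2]
  calc c ^ 2 * (√E / (d / 2) + M * (d / 2)) ^ 2
      ≤ c ^ 2 * (2 * (4 * E / d ^ 2 + M ^ 2 * d ^ 2 / 4)) := by gcongr
    _ = _ := by ring

theorem pt_pow {d r : ℝ} (hd : 0 < d) (hr : 0 < r) :
    (2 * d / r) ^ (7 / 4 : ℝ) * r / d ^ 2 ≤ 4 * (d ^ (-(1 / 4) : ℝ) * r ^ (-(3 / 4) : ℝ)) := by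
  have e1 : (2 * d / r) ^ (7 / 4 : ℝ) = 2 ^ (7 / 4 : ℝ) * (d ^ 2 * d ^ (-(1 / 4) : ℝ)) /
      (r * r ^ (3 / 4 : ℝ)) := by
    rw [Real.div_rpow (by positivity) hr.le, Real.mul_rpow (by norm_num) hd.le]
    congr 2
    · rw [← Real.rpow_two, ← Real.rpow_add hd]
      norm_num
    · nth_rewrite 2 [← Real.rpow_one r]
      rw [← Real.rpow_add hr]
      norm_num
  rw [e1, Real.rpow_neg hr.le (3 / 4)]
  have h2 := lineOde_pow7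
  have h3 : 0 < r ^ (3 / 4 : ℝ) := by positivity
  have h4 : 0 < d ^ (-(1 / 4) : ℝ) := by positivity
  have e2 : 2 ^ (7 / 4 : ℝ) * (d ^ 2 * d ^ (-(1 / 4) : ℝ)) / (r * r ^ (3 / 4 : ℝ)) * r / d ^ 2 =
      2 ^ (7 / 4 : ℝ) * (d ^ (-(1 / 4) : ℝ) * (r ^ (3 / 4 : ℝ))⁻¹) := by
    field_simp
  rw [e2]
  gcongr

theorem pt_one {d r : ℝ} (hd : 0 < d) (hd1 : d ≤ 1) (hr : 0 < r) (hr1 : r ≤ 1) :
    1 ≤ d ^ (-(1 / 4) : ℝ) * r ^ (-(3 / 4) : ℝ) := by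
  have h1 : 1 ≤ d ^ (-(1 / 4) : ℝ) :=
    Real.one_le_rpow_of_pos_of_le_one_of_nonpos hd hd1 (by norm_num)
  have h2 : 1 ≤ r ^ (-(3 / 4) : ℝ) :=
    Real.one_le_rpow_of_pos_of_le_one_of_nonpos hr hr1 (by norm_num)
  nlinarith

/-- far from the scale: `1 / d` is at most the mixed power -/
theorem pt_far {d r κ : ℝ} (hd : 0 < d) (hr : 0 < r) (hκ : 0 < κ) (h : κ * r ≤ 2 * d) :
    1 / d ≤ (κ / 2) ^ (-(3 / 4) : ℝ) * (d ^ (-(1 / 4) : ℝ) * r ^ (-(3 / 4) : ℝ)) := by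
  have e1 : 1 / d = d ^ (-(1 / 4) : ℝ) * d ^ (-(3 / 4) : ℝ) := by
    rw [← Real.rpow_add hd, one_div, ← Real.rpow_neg_one]
    norm_num
  have e2 : (κ / 2) ^ (-(3 / 4) : ℝ) * (d ^ (-(1 / 4) : ℝ) * r ^ (-(3 / 4) : ℝ)) =
      d ^ (-(1 / 4) : ℝ) * (κ / 2 * r) ^ (-(3 / 4) : ℝ) := by
    rw [Real.mul_rpow (by positivity) hr.le]
    ring
  rw [e1, e2]
  have h1 : κ / 2 * r ≤ d := by linarith
  have h2 : d ^ (-(3 / 4) : ℝ) ≤ (κ / 2 * r) ^ (-(3 / 4) : ℝ) :=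
    Real.rpow_le_rpow_of_nonpos (by positivity) h1 (by norm_num)
  gcongr

theorem pt_case1 {X c M d P : ℝ} (hd : 0 < d) (hd1 : d ≤ 1) {E : ℝ}
    (hE1 : E ≤ P * d) (h : X ≤ 2 * c ^ 2 * (4 * E / d ^ 2 + M ^ 2 * d ^ 2 / 4)) :
    X ≤ 2 * c ^ 2 * (4 * P + M ^ 2) / d := by
  refine h.trans ?_
  have e1 : 4 * E / d ^ 2 ≤ 4 * P / d := by
    rw [div_le_div_iff₀ (by positivity) hd]
    have : 4 * E * d ≤ 4 * (P * d) * d := by gcongr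
    nlinarith
  have e2 : M ^ 2 * d ^ 2 / 4 ≤ M ^ 2 / d := by
    rw [div_le_div_iff₀ (by norm_num) hd]
    have h1 : d ^ 2 * d ≤ 1 := by
      calc d ^ 2 * d ≤ 1 ^ 2 * 1 := by gcongr
        _ = 1 := by norm_num
    have h2 : M ^ 2 * (d ^ 2 * d) ≤ M ^ 2 * 1 := by gcongr
    nlinarith [sq_nonneg M]
  calc 2 * c ^ 2 * (4 * E / d ^ 2 + M ^ 2 * d ^ 2 / 4)
      ≤ 2 * c ^ 2 * (4 * P / d + M ^ 2 / d) := by gcongr
    _ = _ := by ring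

theorem pt_case2 {X c M d r C₀ : ℝ} (hd : 0 < d) (hd1 : d ≤ 1) (hr : 0 < r) (hr1 : r ≤ 1)
    (hC₀ : 0 ≤ C₀) {E : ℝ} (hE1 : E ≤ C₀ * (2 * d / r) ^ (7 / 4 : ℝ) * r)
    (h : X ≤ 2 * c ^ 2 * (4 * E / d ^ 2 + M ^ 2 * d ^ 2 / 4)) :
    X ≤ 2 * c ^ 2 * (16 * C₀ + M ^ 2) * (d ^ (-(1 / 4) : ℝ) * r ^ (-(3 / 4) : ℝ)) := by
  refine h.trans ?_
  have h1 := pt_pow hd hr
  have h2 := pt_one hd hd1 hr hr1
  generalize d ^ (-(1 / 4) : ℝ) * r ^ (-(3 / 4) : ℝ) = Y at h1 h2 ⊢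
  have e1 : 4 * E / d ^ 2 ≤ 16 * C₀ * Y := by
    calc 4 * E / d ^ 2 ≤ 4 * (C₀ * (2 * d / r) ^ (7 / 4 : ℝ) * r) / d ^ 2 := by gcongr
      _ = 4 * C₀ * ((2 * d / r) ^ (7 / 4 : ℝ) * r / d ^ 2) := by ring
      _ ≤ 4 * C₀ * (4 * Y) := by gcongr
      _ = _ := by ring
  have e2 : M ^ 2 * d ^ 2 / 4 ≤ M ^ 2 * Y := by
    have h3 : d ^ 2 ≤ 1 := pow_le_one₀ hd.le hd1
    have h4 : M ^ 2 * d ^ 2 ≤ M ^ 2 * 1 := by gcongr
    have h5 : M ^ 2 * 1 ≤ M ^ 2 * Y := by gcongr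
    nlinarith [sq_nonneg M]
  calc 2 * c ^ 2 * (4 * E / d ^ 2 + M ^ 2 * d ^ 2 / 4)
      ≤ 2 * c ^ 2 * (16 * C₀ * Y + M ^ 2 * Y) := by gcongr
    _ = _ := by ring

/-- **Pointwise bounds for the gradient**, with uniform constants. -/
theorem unif_pt (M : ℝ) (hM1 : 1 ≤ M) {R₀ : ℝ} (hR₀ : 0 < R₀) (hR1 : R₀ ≤ 1) :
    ∃ a C Λ : ℝ, 0 < a ∧ a ≤ R₀ / 16 ∧ 1 ≤ C ∧ 1 ≤ Λ ∧
    ∀ (Ω : Set ℂ) (g u : ℂ → ℝ) (G : ℂ → ℂ) (K : Set ℂ) (x₀ : ℂ), MS Ω g u G K M x₀ R₀ →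
      (∀ z ∈ ball x₀ (a / 8), z ∉ K → ‖G z‖ ^ 2 ≤ C ∨ ∃ y ∈ K, 0 < dist z y ∧ dist z y ≤ a / 8 ∧
        ‖G z‖ ^ 2 ≤ C / dist z y ∧ ∀ r, 0 < r → r ≤ a → Mid K y r →
          ‖G z‖ ^ 2 ≤ C * (dist z y ^ (-(1 / 4) : ℝ) * r ^ (-(3 / 4) : ℝ))) ∧
      ∀ x ∈ K ∩ closedBall x₀ R₀, ∀ y ∈ K ∩ closedBall x₀ R₀, ∀ σ, 0 < σ → dist y x ≤ a →
        (∀ r, σ < r → r ≤ a → ¬ Mid K x r) → (∀ r, σ < r → r ≤ a → ¬ Mid K y r) →
          dist y x ≤ Λ * σ := by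
  have hπ := Real.pi_pos
  obtain ⟨a, κ, C₀, Λ, ha, haR, hκ, hκ1, hC₀, hΛ, H⟩ := unif_decay M hM1 hR₀ hR1
  obtain ⟨c, hc, hge⟩ := Q.exists_grad_est
  obtain ⟨A₁, hA₁⟩ : ∃ A₁, A₁ = 2 * c ^ 2 * (4 * (10 * π * M ^ 2 * (a / 8)) / (a / 8) ^ 2 +
    M ^ 2 * (a / 8) ^ 2 / 4) := ⟨_, rfl⟩
  obtain ⟨A₂, hA₂⟩ : ∃ A₂, A₂ = 2 * c ^ 2 * (4 * (20 * π * M ^ 2) + M ^ 2) := ⟨_, rfl⟩
  obtain ⟨A₃, hA₃⟩ : ∃ A₃, A₃ = 2 * c ^ 2 * (16 * C₀ + M ^ 2) := ⟨_, rfl⟩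
  obtain ⟨A₄, hA₄⟩ : ∃ A₄, A₄ = A₂ * (κ / 2) ^ (-(3 / 4) : ℝ) := ⟨_, rfl⟩
  have p1 : 0 ≤ A₁ := by rw [hA₁]; positivity
  have p2 : 0 ≤ A₂ := by rw [hA₂]; positivity
  have p3 : 0 ≤ A₃ := by rw [hA₃]; positivity
  have p4 : 0 ≤ A₄ := by rw [hA₄]; positivity
  refine ⟨a, 1 + A₁ + A₂ + A₃ + A₄, Λ, ha, haR, by linarith, hΛ, ?_⟩
  intro Ω g u G K x₀ h
  obtain ⟨h1, h2⟩ := H Ω g u G K x₀ h
  refine ⟨?_, h2⟩
  intro z hz hzK
  have hzx : dist z x₀ < a / 8 := mem_ball.1 hz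
  have hzΩ : z ∈ Ω := h.sub (mem_closedBall.2 (by linarith))
  have hGz : G z = grad u z := h.Gu z ⟨hzΩ, hzK⟩
  have hsubΩ : ∀ s ≤ a / 8, ball z s ⊆ Ω := fun s hs =>
    (ball_subset_closedBall.trans (closedBall_subset_closedBall' (by linarith))).trans h.sub
  have hsub4 : ∀ s ≤ a / 8, ball z s ⊆ ball x₀ (2 * (2 * R₀)) := fun s hs =>
    ball_subset_ball' (by linarith)
  -- the gradient estimate in a disk which does not meet `K`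
  have hest : ∀ s, 0 < s → s ≤ a / 8 → ball z s ∩ K = ∅ →
      ‖G z‖ ^ 2 ≤ 2 * c ^ 2 * (4 * En G z s / s ^ 2 + M ^ 2 * s ^ 2 / 4) := by
    intro s hs hsa hK
    have e1 : 2 * (s / 2) = s := by ring
    have e2 := hge h.toQ z (s / 2) (by positivity) (by
      rw [e1]
      intro w hw
      refine ⟨hsub4 s hsa hw, fun hwK => ?_⟩
      exact (eq_empty_iff_forall_notMem.1 hK) w ⟨hw, hwK⟩) z (mem_ball_self (by positivity)) z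
      (mem_ball_self (by positivity))
    rw [e1, ← h.En_dir (hsubΩ s hsa), ← hGz] at e2
    exact pt_alg (En_nonneg G z s) hs (norm_nonneg _) e2.1
  by_cases hne : (K ∩ closedBall z (a / 8)).Nonempty
  · right
    have hcomp : IsCompact (K ∩ closedBall z (a / 8)) :=
      h.N.min.1.isCompact_inter ((closedBall_subset_closedBall' (by linarith)).trans h.sub)
    obtain ⟨y, hy, hmin⟩ := hcomp.exists_isMinOn hne (continuous_const.dist continuous_id).continuousOn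
      (f := fun w : ℂ => dist z w)
    have hyz : dist z y ≤ a / 8 := by
      rw [dist_comm]
      exact mem_closedBall.1 hy.2
    have hd : 0 < dist z y := dist_pos.2 fun e => hzK (e ▸ hy.1)
    obtain ⟨d, hdd⟩ : ∃ d, d = dist z y := ⟨_, rfl⟩
    have hK : ball z d ∩ K = ∅ := by
      rw [eq_empty_iff_forall_notMem]
      rintro w ⟨hw, hwK⟩
      rw [mem_ball, dist_comm] at hw
      have h3 : w ∈ K ∩ closedBall z (a / 8) := ⟨hwK, by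
        rw [mem_closedBall, dist_comm]
        linarith⟩
      have h4 : dist z y ≤ dist z w := hmin h3
      linarith
    rw [← hdd] at hyz hd
    have hd1 : d ≤ 1 := by linarith
    have hE := hest d hd hyz hK
    have hyx : dist y x₀ ≤ a / 4 := by
      have := dist_triangle y z x₀
      rw [dist_comm y z, ← hdd] at this
      linarith
    have hEy : En G z d ≤ En G y (2 * d) := h.En_le_of_subset (ball_subset_ball' (by linarith))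
    have hup := h.upper (y := y) (s := 2 * d) (by linarith) (by positivity) (by linarith)
    have hHn := Hn_nonneg K y (2 * d)
    have hb1 : ‖G z‖ ^ 2 ≤ A₂ / d := by
      rw [hA₂]
      exact pt_case1 hd hd1 (by linarith) hE
    refine ⟨y, hy.1, by rw [← hdd]; exact hd, by rw [← hdd]; exact hyz, ?_, ?_⟩
    · rw [← hdd]
      refine hb1.trans ?_
      gcongr
      linarith
    · intro r hr hra hm
      rw [← hdd]
      have hr1 : r ≤ 1 := by linarith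
      have hY : 0 ≤ d ^ (-(1 / 4) : ℝ) * r ^ (-(3 / 4) : ℝ) := by positivity
      rcases le_or_gt (2 * d) (κ * r) with hle | hlt
      · have h5 := h1 y ⟨hy.1, mem_closedBall.2 (by linarith)⟩ r hr hra hm (2 * d) (by positivity) hle
        have h6 := pt_case2 (c := c) (M := M) hd hd1 hr hr1 (by linarith) (hEy.trans h5) hE
        rw [← hA₃] at h6
        refine h6.trans ?_
        gcongr
        linarith
      · have h5 := pt_far hd hr hκ hlt.le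
        calc ‖G z‖ ^ 2 ≤ A₂ * (1 / d) := by rw [mul_one_div]; exact hb1
          _ ≤ A₂ * ((κ / 2) ^ (-(3 / 4) : ℝ) * (d ^ (-(1 / 4) : ℝ) * r ^ (-(3 / 4) : ℝ))) := by
            gcongr
          _ = A₄ * (d ^ (-(1 / 4) : ℝ) * r ^ (-(3 / 4) : ℝ)) := by rw [hA₄]; ring
          _ ≤ _ := by
            gcongr
            linarith
  · left
    rw [not_nonempty_iff_eq_empty] at hne
    have hK : ball z (a / 8) ∩ K = ∅ := by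
      rw [eq_empty_iff_forall_notMem] at hne ⊢
      rintro w ⟨hw, hwK⟩
      exact hne w ⟨hwK, ball_subset_closedBall hw⟩
    have hE := hest (a / 8) (by positivity) le_rfl hK
    have hup := h.upper (y := z) (s := a / 8) (by linarith) (by positivity) (by linarith)
    have hHn := Hn_nonneg K z (a / 8)
    have h3 : ‖G z‖ ^ 2 ≤ A₁ := by
      refine hE.trans ?_
      rw [hA₁]
      gcongr
      linarith
    linarith

end Vale.Agent.P128.Q1
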