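import Vale.Agent.P128.H445.Pt2
import Vale.Agent.P128.H757.Tube
import Vale.Agent.P128.H861.Unif1

/-! The area of the neighbourhoods of `K`, with uniform constants. -/

open MeasureTheory Set Metric Filter
open scoped ENNReal NNReal Topology Real

namespace Vale.Agent.P128.H445

open Vale.Agent.P128 Vale.Agent.P128.Q1 Vale.Agent.P128.H757

variable {Ω : Set ℂ} {g u : ℂ → ℝ} {G : ℂ → ℂ} {K : Set ℂ} {M : ℝ} {x₀ : ℂ} {R₀ : ℝ}

/-- separated sets of points of `K` are small -/
theorem card_le' (h : MS Ω g u G K M x₀ R₀) {x : ℂ} (hx : x ∈ K ∩ ball x₀ R₀) {ρ : ℝ}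
    (hlow : ∀ y ∈ K ∩ closedBall x₀ (2 * R₀), ∀ s ∈ Ioc 0 ρ, s / 2 ≤ Q.dir u y s + Q.len K y s)
    {r t : ℝ} (ht : 0 < t) (htr : t ≤ r) (htρ : t ≤ ρ) (hrR : r ≤ R₀ / 4) {F : Finset ℂ}
    (hF : ∀ y ∈ F, y ∈ K ∧ dist y x < 2 * r) (hsep : ∀ a ∈ F, ∀ b ∈ F, a ≠ b → 2 * t ≤ dist a b) :
    F.card * t ≤ 2 * (6 * π + 9 * π * M ^ 2) * r := by
  have hR0 := h.R0
  have hR1 := h.R1
  have hπ := Real.pi_pos
  have hxd : dist x x₀ < R₀ := hx.2
  have h1 := sum_le h.N (x := x) (r := 3 * r) (s := t) F (fun a ha b hb hab => by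
      refine ball_disjoint_ball ?_
      have := hsep a ha b hb hab
      linarith) (fun y hy => ball_subset_ball' (by linarith [(hF y hy).2]))
  have h2 : (F.card : ℝ) * (t / 2) ≤ ∑ y ∈ F, (En G y t + Q.len K y t) := by
    rw [← nsmul_eq_mul]
    refine Finset.card_nsmul_le_sum _ _ _ fun y hy => ?_
    obtain ⟨hyK, hyx⟩ := hF y hy
    have hyx₀ := dist_triangle y x x₀
    rw [h.En_dir (fun w hw => h.sub (by
      have hw' : dist w y < t := hw
      have := dist_triangle w y x₀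
      rw [mem_closedBall]
      linarith))]
    exact hlow y ⟨hyK, by rw [mem_closedBall]; linarith⟩ t ⟨ht, htρ⟩
  have h3 := h.N.circle_bound (x := x) (s := 3 * r) (R := 4 * r) (by linarith) (by linarith)
    (fun w hw => h.sub (by
      rw [mem_closedBall] at hw ⊢
      have := dist_triangle w x x₀
      linarith))
  have h4 := Un_nonneg g u x (3 * r)
  have h5 : π * M ^ 2 * (3 * r) ^ 2 ≤ 9 * π * M ^ 2 * r := by
    have hr0 : 0 < r := ht.trans_le htr
    have : r ^ 2 ≤ r := by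
      have : r ≤ 1 := by linarith
      nlinarith
    calc π * M ^ 2 * (3 * r) ^ 2 = 9 * π * M ^ 2 * r ^ 2 := by ring
      _ ≤ _ := by gcongr
  linarith

/-- the constant of the tube lemma -/
noncomputable def tubeC (M : ℝ) : ℝ := 9 * π * (2 * (6 * π + 9 * π * M ^ 2))

theorem tubeC_pos (M : ℝ) : 0 < tubeC M := by
  have := Real.pi_pos
  unfold tubeC
  positivity

/-- **Tubes**, uniformly. -/
theorem tube_unif (h : MS Ω g u G K M x₀ R₀) {x : ℂ} (hx : x ∈ K ∩ ball x₀ R₀) {r t : ℝ}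
    (ht : 0 < t) (htr : t ≤ r) (htρ : t ≤ min R₀ (1 / (400 * M ^ 2))) (hrR : r ≤ R₀ / 4) :
    volume {z ∈ ball x r | infDist z K < t} ≤ ENNReal.ofReal (tubeC M * (t * r)) := by
  have hR0 := h.R0
  have hπ := Real.pi_pos
  have hlow : ∀ y ∈ K ∩ closedBall x₀ (2 * R₀), ∀ s ∈ Ioc 0 (min R₀ (1 / (400 * M ^ 2))),
      s / 2 ≤ Q.dir u y s + Q.len K y s := by
    intro y hy s hs
    refine h.toQ.low_unif y hy s ⟨hs.1, hs.2.trans (le_of_eq ?_)⟩
    rw [show 2 * R₀ / 2 = R₀ by ring]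
  have hr0 : 0 < r := ht.trans_le htr
  unfold tubeC
  set D : ℝ := 2 * (6 * π + 9 * π * M ^ 2) with hD
  have hD0 : 0 < D := by positivity
  set P : ℕ → Prop := fun n => ∃ F : Finset ℂ, (∀ y ∈ F, y ∈ K ∧ dist y x < 2 * r) ∧
    (∀ a ∈ F, ∀ b ∈ F, a ≠ b → 2 * t ≤ dist a b) ∧ F.card = n with hP
  have hP0 : P 0 := ⟨∅, by simp, by simp, rfl⟩
  have hPb : ∀ n, P n → n ≤ ⌊D * r / t⌋₊ := by
    rintro n ⟨F, h1, h2, rfl⟩
    have := card_le' h hx hlow ht htr htρ hrR h1 h2
    refine Nat.le_floor ?_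
    rw [le_div_iff₀ ht]
    exact this
  classical
  have hPn := Nat.findGreatest_spec (P := P) (Nat.zero_le ⌊D * r / t⌋₊) hP0
  obtain ⟨F, hF1, hF2, hF3⟩ := hPn
  have hmax : ∀ y ∈ K, dist y x < 2 * r → ∃ a ∈ F, dist y a < 2 * t := by
    intro y hy hyx
    by_contra hcon
    push Not at hcon
    have hyF : y ∉ F := fun hyF => by
      have := hcon y hyF
      rw [dist_self] at this
      linarith
    have hQ : P (Nat.findGreatest P ⌊D * r / t⌋₊ + 1) := by
      refine ⟨insert y F, ?_, ?_, ?_⟩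
      · intro w hw
        rw [Finset.mem_insert] at hw
        rcases hw with rfl | hw
        · exact ⟨hy, hyx⟩
        · exact hF1 w hw
      · intro a ha b hb hab
        rw [Finset.mem_insert] at ha hb
        rcases ha with rfl | ha
        · rcases hb with rfl | hb
          · exact absurd rfl hab
          · exact hcon b hb
        · rcases hb with rfl | hb
          · rw [dist_comm]; exact hcon a ha
          · exact hF2 a ha b hb hab
      · rw [Finset.card_insert_of_notMem hyF, hF3]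
    have h1 := Nat.le_findGreatest (hPb _ hQ) hQ
    omega
  have hcov : {z ∈ ball x r | infDist z K < t} ⊆ ⋃ a ∈ F, ball a (3 * t) := by
    rintro z ⟨hz, hzt⟩
    have hz' : dist z x < r := hz
    obtain ⟨y, hy, hyz⟩ := (infDist_lt_iff ⟨x, hx.1⟩).1 hzt
    have hyx : dist y x < 2 * r := by
      have := dist_triangle y z x
      rw [dist_comm y z] at this
      linarith
    obtain ⟨a, ha, hya⟩ := hmax y hy hyx
    refine mem_iUnion₂.2 ⟨a, ha, ?_⟩
    rw [mem_ball]
    have := dist_triangle z y a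
    linarith
  have hcard := card_le' h hx hlow ht htr htρ hrR hF1 hF2
  calc volume {z ∈ ball x r | infDist z K < t} ≤ volume (⋃ a ∈ F, ball a (3 * t)) :=
        measure_mono hcov
    _ ≤ ∑ a ∈ F, volume (ball a (3 * t)) := measure_biUnion_finset_le _ _
    _ = F.card * ENNReal.ofReal (π * (3 * t) ^ 2) := by
        rw [Finset.sum_congr rfl fun a _ => (volume_ball' a (by positivity : 0 ≤ 3 * t)),
          Finset.sum_const, nsmul_eq_mul]
    _ = ENNReal.ofReal (F.card * (π * (3 * t) ^ 2)) := by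
        rw [ENNReal.ofReal_mul (Nat.cast_nonneg _), ENNReal.ofReal_natCast]
    _ ≤ ENNReal.ofReal (9 * π * D * (t * r)) := by
        refine ENNReal.ofReal_le_ofReal ?_
        calc (F.card : ℝ) * (π * (3 * t) ^ 2) = (F.card * t) * (9 * π * t) := by ring
          _ ≤ (D * r) * (9 * π * t) := mul_le_mul_of_nonneg_right hcard (by positivity)
          _ = _ := by ring

end Vale.Agent.P128.H445
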