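import Vale.Agent.P128.H445.Tube

/-! Weak `L⁴` estimate for the gradient with a constant which depends only on `M` and `R₀`. -/

open MeasureTheory Set Metric Filter
open scoped ENNReal NNReal Topology Real

namespace Vale.Agent.P128.H445

open Vale.Agent.P128 Vale.Agent.P128.Q1 Vale.Agent.P128.H757

variable {Ω : Set ℂ} {g u : ℂ → ℝ} {G : ℂ → ℂ} {K : Set ℂ} {M : ℝ} {x₀ : ℂ} {R₀ : ℝ}

theorem rpow_arith {X τ r d C : ℝ} (hX : 0 < X) (hC : 0 < C) (hτ : τ = C / X) (hr : 0 < r)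
    (hd : 0 < d) (h : X < C * (d ^ (-(1 / 4) : ℝ) * r ^ (-(3 / 4) : ℝ))) :
    d * r ^ 3 < τ ^ 4 := by
  have hτ0 : 0 < τ := by rw [hτ]; positivity
  have e1 : d ^ (1 / 4 : ℝ) * r ^ (3 / 4 : ℝ) < τ := by
    have h1 : d ^ (-(1 / 4) : ℝ) * d ^ (1 / 4 : ℝ) = 1 := by
      rw [← Real.rpow_add hd]; norm_num
    have h2 : r ^ (-(3 / 4) : ℝ) * r ^ (3 / 4 : ℝ) = 1 := by
      rw [← Real.rpow_add hr]; norm_num
    have h3 : 0 < d ^ (1 / 4 : ℝ) * r ^ (3 / 4 : ℝ) := by positivity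
    have h4 := mul_lt_mul_of_pos_right h h3
    have h5 : C * (d ^ (-(1 / 4) : ℝ) * r ^ (-(3 / 4) : ℝ)) * (d ^ (1 / 4 : ℝ) * r ^ (3 / 4 : ℝ)) =
        C * ((d ^ (-(1 / 4) : ℝ) * d ^ (1 / 4 : ℝ)) * (r ^ (-(3 / 4) : ℝ) * r ^ (3 / 4 : ℝ))) := by
      ring
    rw [h5, h1, h2, mul_one, mul_one] at h4
    rw [hτ, lt_div_iff₀ hX]
    linarith
  have e2 : (d ^ (1 / 4 : ℝ) * r ^ (3 / 4 : ℝ)) ^ 4 = d * r ^ 3 := by
    rw [mul_pow, ← Real.rpow_natCast, ← Real.rpow_natCast, ← Real.rpow_mul hd.le,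
      ← Real.rpow_mul hr.le]
    norm_num
  rw [← e2]
  exact pow_lt_pow_left₀ e1 (by positivity) (by norm_num)

/-- The geometric part: a set which is small near `K` at every dyadic scale. -/
theorem vol_sum {S : Set ℂ} {S' : ℕ → Set ℂ} {Z : Set ℂ} (hZ : Z ⊆ S ∪ ⋃ k, S' k) {B τ : ℝ}
    (hB : 0 ≤ B) (h0 : volume S ≤ ENNReal.ofReal (B * τ ^ 2))
    (hk : ∀ k, volume (S' k) ≤ ENNReal.ofReal (B * τ ^ 2 * (1 / 2) ^ k)) :
    volume Z ≤ ENNReal.ofReal (3 * B * τ ^ 2) := by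
  have hs : Summable fun k : ℕ => B * τ ^ 2 * (1 / 2 : ℝ) ^ k :=
    summable_geometric_two.mul_left _
  have h1 : ∑' k, volume (S' k) ≤ ENNReal.ofReal (2 * B * τ ^ 2) := by
    calc ∑' k, volume (S' k) ≤ ∑' k, ENNReal.ofReal (B * τ ^ 2 * (1 / 2) ^ k) :=
          ENNReal.tsum_le_tsum hk
      _ = ENNReal.ofReal (∑' k : ℕ, B * τ ^ 2 * (1 / 2 : ℝ) ^ k) :=
          (ENNReal.ofReal_tsum_of_nonneg (fun k => by positivity) hs).symm
      _ = _ := by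
          rw [tsum_mul_left, tsum_geometric_two]
          congr 1
          ring
  calc volume Z ≤ volume S + volume (⋃ k, S' k) := (measure_mono hZ).trans (measure_union_le _ _)
    _ ≤ ENNReal.ofReal (B * τ ^ 2) + ENNReal.ofReal (2 * B * τ ^ 2) :=
        add_le_add h0 ((measure_iUnion_le _).trans h1)
    _ = _ := by
        rw [← ENNReal.ofReal_add (by positivity) (by positivity)]
        congr 1
        ring

/-- **The uniform local theorem.** -/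
theorem weak_pt (M : ℝ) (hM1 : 1 ≤ M) {R₀ : ℝ} (hR₀ : 0 < R₀) (hR1 : R₀ ≤ 1) :
    ∃ r₀ A : ℝ, 0 < r₀ ∧ 0 < A ∧
    ∀ (Ω : Set ℂ) (g u : ℂ → ℝ) (G : ℂ → ℂ) (K : Set ℂ) (x₀ : ℂ), MS Ω g u G K M x₀ R₀ →
      ∀ t : ℝ, 0 < t → volume {z ∈ ball x₀ r₀ \ K | t < ‖G z‖} ≤ ENNReal.ofReal (A / t ^ 4) := by
  have hπ := Real.pi_pos
  obtain ⟨a, C, Λ, ha, haR, hC, hΛ, H⟩ := unif_pt M hM1 hR₀ hR1
  have hT := tubeC_pos M
  obtain ⟨ρ, hρ⟩ : ∃ ρ, ρ = min R₀ (1 / (400 * M ^ 2)) := ⟨_, rfl⟩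
  have hρ0 : 0 < ρ := by rw [hρ]; exact lt_min hR₀ (by positivity)
  have hρR : ρ ≤ R₀ := by rw [hρ]; exact min_le_left _ _
  obtain ⟨τ₁, hτ₁⟩ : ∃ τ₁, τ₁ = min (ρ / 4) a := ⟨_, rfl⟩
  have hτ₁0 : 0 < τ₁ := by rw [hτ₁]; exact lt_min (by positivity) ha
  have hτ₁ρ : τ₁ ≤ ρ / 4 := by rw [hτ₁]; exact min_le_left _ _
  have hτ₁a : τ₁ ≤ a := by rw [hτ₁]; exact min_le_right _ _
  obtain ⟨C₁, hC₁⟩ : ∃ C₁, C₁ = max C (C / τ₁) := ⟨_, rfl⟩
  have hC₁C : C ≤ C₁ := by rw [hC₁]; exact le_max_left _ _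
  have hC₁τ : C / τ₁ ≤ C₁ := by rw [hC₁]; exact le_max_right _ _
  obtain ⟨B, hB⟩ : ∃ B, B = 4 * π * Λ ^ 2 + 4 * Λ * tubeC M := ⟨_, rfl⟩
  have hB0 : 0 ≤ B := by rw [hB]; positivity
  refine ⟨a / 8, π * (a / 8) ^ 2 * C₁ ^ 2 + 3 * B * C ^ 2 + 1, by positivity, by positivity, ?_⟩
  intro Ω g u G K x₀ h t ht
  obtain ⟨hpt, hcl⟩ := H Ω g u G K x₀ h
  have ht4 : (0 : ℝ) < t ^ 4 := by positivity
  have ht2 : (0 : ℝ) < t ^ 2 := by positivity
  rcases le_or_gt (t ^ 2) C₁ with htC | htC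
  · calc volume {z ∈ ball x₀ (a / 8) \ K | t < ‖G z‖} ≤ volume (ball x₀ (a / 8)) :=
          measure_mono fun z hz => hz.1.1
      _ = ENNReal.ofReal (π * (a / 8) ^ 2) := volume_ball' x₀ (by positivity)
      _ ≤ _ := by
          refine ENNReal.ofReal_le_ofReal ?_
          rw [le_div_iff₀ ht4]
          have h1 : t ^ 4 ≤ C₁ ^ 2 := by
            calc t ^ 4 = (t ^ 2) ^ 2 := by ring
              _ ≤ C₁ ^ 2 := pow_le_pow_left₀ ht2.le htC 2
          have h2 : π * (a / 8) ^ 2 * t ^ 4 ≤ π * (a / 8) ^ 2 * C₁ ^ 2 := by gcongr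
          have h3 : 0 ≤ 3 * B * C ^ 2 := by positivity
          linarith
  obtain ⟨τ, hτ⟩ : ∃ τ, τ = C / t ^ 2 := ⟨_, rfl⟩
  have hτ0 : 0 < τ := by rw [hτ]; positivity
  have hττ : τ < τ₁ := by
    rw [hτ, div_lt_iff₀ ht2]
    have h1 := hC₁τ.trans_lt htC
    rw [div_lt_iff₀ hτ₁0] at h1
    linarith
  obtain ⟨Z, hZ⟩ : ∃ Z, Z = {z ∈ ball x₀ (a / 8) \ K | t < ‖G z‖} := ⟨_, rfl⟩
  have hy : ∀ z, z ∈ Z → ∃ y ∈ K, 0 < dist z y ∧ dist z y ≤ a / 8 ∧ dist z y < τ ∧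
      ∀ r, 0 < r → r ≤ a → Mid K y r → dist z y * r ^ 3 < τ ^ 4 := by
    intro z hz
    rw [hZ] at hz
    obtain ⟨⟨hz1, hzK⟩, hzt⟩ := hz
    have hz2 : t ^ 2 < ‖G z‖ ^ 2 := pow_lt_pow_left₀ hzt ht.le (by norm_num)
    rcases hpt z hz1 hzK with h1 | ⟨y, hyK, hd, hda, h1, h2⟩
    · exfalso
      linarith
    · refine ⟨y, hyK, hd, hda, ?_, fun r hr hra hm => ?_⟩
      · have h3 := hz2.trans_le h1
        rw [lt_div_iff₀ hd] at h3
        rw [hτ, lt_div_iff₀ ht2]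
        linarith
      · exact rpow_arith ht2 (by linarith) hτ hr hd (hz2.trans_le (h2 r hr hra hm))
  choose! y hyK hyd hya hyτ hym using hy
  have hzx : ∀ z ∈ Z, dist z x₀ < a / 8 := fun z hz => by
    rw [hZ] at hz
    exact hz.1.1
  have hyx : ∀ z ∈ Z, dist (y z) x₀ < a / 4 := fun z hz => by
    have := dist_triangle (y z) z x₀
    rw [dist_comm (y z) z] at this
    linarith [hzx z hz, hya z hz]
  have hyR : ∀ z ∈ Z, y z ∈ K ∩ closedBall x₀ R₀ := fun z hz =>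
    ⟨hyK z hz, mem_closedBall.2 (by linarith [hyx z hz])⟩
  have hyb : ∀ z ∈ Z, y z ∈ K ∩ ball x₀ R₀ := fun z hz =>
    ⟨hyK z hz, mem_ball.2 (by linarith [hyx z hz])⟩
  have hyy : ∀ z ∈ Z, ∀ w ∈ Z, dist (y z) (y w) ≤ a := fun z hz w hw => by
    have := dist_triangle_right (y z) (y w) x₀
    linarith [hyx z hz, hyx w hw]
  obtain ⟨P, hP⟩ : ∃ P : ℂ → ℕ → Prop, P = fun z k => ∃ r, 2 ^ k * τ ≤ r ∧ r ≤ a ∧ Mid K (y z) r :=
    ⟨_, rfl⟩
  have hcov : Z ⊆ {z ∈ Z | ¬ P z 0} ∪ ⋃ k, {z ∈ Z | P z k ∧ ¬ P z (k + 1)} := by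
    intro z hz
    by_cases h0 : P z 0
    · right
      have hex : ∃ n, ¬ P z n := by
        obtain ⟨n, hn⟩ := pow_unbounded_of_one_lt (a / τ) (one_lt_two (α := ℝ))
        refine ⟨n, ?_⟩
        rw [hP]
        rintro ⟨r, h1, h2, -⟩
        rw [div_lt_iff₀ hτ0] at hn
        linarith
      classical
      obtain ⟨k, hk⟩ : ∃ k, Nat.find hex = k + 1 := by
        refine Nat.exists_eq_succ_of_ne_zero fun e => ?_
        have := Nat.find_spec hex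
        rw [e] at this
        exact this h0
      refine mem_iUnion.2 ⟨k, hz, ?_, ?_⟩
      · by_contra hcon
        exact Nat.find_min hex (by rw [hk]; exact Nat.lt_succ_self k) hcon
      · rw [← hk]
        exact Nat.find_spec hex
    · exact Or.inl ⟨hz, h0⟩
  have hcluster : ∀ σ, 0 < σ → ∀ z ∈ Z, ∀ w ∈ Z, (∀ r, σ < r → r ≤ a → ¬ Mid K (y z) r) →
      (∀ r, σ < r → r ≤ a → ¬ Mid K (y w) r) → dist (y z) (y w) ≤ Λ * σ := by
    intro σ hσ z hz w hw h1 h2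
    exact hcl (y w) (hyR w hw) (y z) (hyR z hz) σ hσ (hyy z hz w hw) h2 h1
  have hvol : volume Z ≤ ENNReal.ofReal (3 * B * τ ^ 2) := by
    refine vol_sum hcov hB0 ?_ fun k => ?_
    · rcases eq_empty_or_nonempty {z ∈ Z | ¬ P z 0} with he | ⟨w, hw⟩
      · rw [he, measure_empty]
        exact bot_le
      have hno : ∀ z, z ∈ {z ∈ Z | ¬ P z 0} → ∀ r, τ < r → r ≤ a → ¬ Mid K (y z) r := by
        intro z hz r hr hra hm
        apply hz.2
        rw [hP]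
        exact ⟨r, by rw [pow_zero, one_mul]; exact hr.le, hra, hm⟩
      have hsub : {z ∈ Z | ¬ P z 0} ⊆ ball (y w) (2 * Λ * τ) := by
        intro z hz
        have h1 := hcluster τ hτ0 z hz.1 w hw.1 (hno z hz) (hno w hw)
        have h2 := dist_triangle z (y z) (y w)
        have h3 := hyτ z hz.1
        have h4 : τ ≤ Λ * τ := le_mul_of_one_le_left hτ0.le hΛ
        rw [mem_ball]
        linarith
      calc volume {z ∈ Z | ¬ P z 0} ≤ volume (ball (y w) (2 * Λ * τ)) := measure_mono hsub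
        _ = ENNReal.ofReal (π * (2 * Λ * τ) ^ 2) := volume_ball' _ (by positivity)
        _ ≤ _ := by
            refine ENNReal.ofReal_le_ofReal ?_
            rw [hB]
            have : 0 ≤ 4 * Λ * tubeC M * τ ^ 2 := by positivity
            nlinarith
    · rcases eq_empty_or_nonempty {z ∈ Z | P z k ∧ ¬ P z (k + 1)} with he | ⟨w, hw⟩
      · rw [he, measure_empty]
        exact bot_le
      have hno : ∀ z, z ∈ {z ∈ Z | P z k ∧ ¬ P z (k + 1)} → ∀ r, 2 ^ (k + 1) * τ < r → r ≤ a →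
          ¬ Mid K (y z) r := by
        intro z hz r hr hra hm
        apply hz.2.2
        rw [hP]
        exact ⟨r, hr.le, hra, hm⟩
      have hp2 : (0 : ℝ) < 2 ^ k := by positivity
      have hp1 : (1 : ℝ) ≤ 2 ^ k := one_le_pow₀ (by norm_num)
      have hdz : ∀ z, z ∈ {z ∈ Z | P z k ∧ ¬ P z (k + 1)} → dist z (y z) < τ * (1 / 8) ^ k := by
        intro z hz
        have h1 := hz.2.1
        rw [hP] at h1
        obtain ⟨r, hr, hra, hm⟩ := h1
        have hr0 : 0 < r := lt_of_lt_of_le (by positivity) hr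
        have h2 := hym z hz.1 r hr0 hra hm
        have h3 : (2 ^ k * τ) ^ 3 ≤ r ^ 3 := pow_le_pow_left₀ (by positivity) hr 3
        have h4 : dist z (y z) * (2 ^ k * τ) ^ 3 < τ ^ 4 :=
          (mul_le_mul_of_nonneg_left h3 dist_nonneg).trans_lt h2
        have h5 : (2 ^ k * τ) ^ 3 * (τ * (1 / 8) ^ k) = τ ^ 4 := by
          have : ((2 : ℝ) ^ k) ^ 3 * (1 / 8) ^ k = 1 := by
            rw [← pow_mul, mul_comm k 3, pow_mul, ← mul_pow]
            norm_num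
          calc (2 ^ k * τ) ^ 3 * (τ * (1 / 8) ^ k) = (((2 : ℝ) ^ k) ^ 3 * (1 / 8) ^ k) * τ ^ 4 := by
                ring
            _ = τ ^ 4 := by rw [this, one_mul]
        have h6 : (0 : ℝ) < (2 ^ k * τ) ^ 3 := by positivity
        rw [← h5, mul_comm] at h4
        exact lt_of_mul_lt_mul_left h4 h6.le
      obtain ⟨ρk, hρk⟩ : ∃ ρk, ρk = min (4 * Λ * (2 ^ k * τ)) (R₀ / 4) := ⟨_, rfl⟩
      have hsub : {z ∈ Z | P z k ∧ ¬ P z (k + 1)} ⊆
          {z ∈ ball (y w) ρk | infDist z K < τ * (1 / 8) ^ k} := by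
        intro z hz
        refine ⟨?_, (infDist_le_dist_of_mem (hyK z hz.1)).trans_lt (hdz z hz)⟩
        rw [mem_ball, hρk]
        refine lt_min ?_ ?_
        · have h1 := hcluster (2 ^ (k + 1) * τ) (by positivity) z hz.1 w hw.1 (hno z hz) (hno w hw)
          have h2 := dist_triangle z (y z) (y w)
          have h3 := hyτ z hz.1
          have h4 : τ ≤ Λ * (2 ^ k * τ) := by
            calc τ = 1 * (1 * τ) := by ring
              _ ≤ Λ * (2 ^ k * τ) := by gcongr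
          rw [pow_succ] at h1
          nlinarith
        · have h2 := dist_triangle_right z (y w) x₀
          linarith [hzx z hz.1, hyx w hw.1]
      have h18 : (1 / 8 : ℝ) ^ k ≤ 1 := pow_le_one₀ (by norm_num) (by norm_num)
      have ht1 : 0 < τ * (1 / 8) ^ k := by positivity
      have ht3 : τ * (1 / 8) ^ k ≤ τ := mul_le_of_le_one_right hτ0.le h18
      have h3 := tube_unif h (hyb w hw.1) (r := ρk) (t := τ * (1 / 8) ^ k) ht1 (by
          rw [hρk]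
          refine le_min ?_ ?_
          · calc τ * (1 / 8) ^ k ≤ τ := ht3
              _ = 1 * 1 * (1 * τ) := by ring
              _ ≤ 4 * Λ * (2 ^ k * τ) := by gcongr; norm_num
          · linarith) (by rw [← hρ]; linarith) (by rw [hρk]; exact min_le_right _ _)
      refine (measure_mono hsub).trans (h3.trans ?_)
      refine ENNReal.ofReal_le_ofReal ?_
      have h4 : ρk ≤ 4 * Λ * (2 ^ k * τ) := by rw [hρk]; exact min_le_left _ _
      have h5 : (1 / 8 : ℝ) ^ k * 2 ^ k ≤ (1 / 2) ^ k := by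
        rw [← mul_pow]
        exact pow_le_pow_left₀ (by norm_num) (by norm_num) k
      calc tubeC M * (τ * (1 / 8) ^ k * ρk) ≤
            tubeC M * (τ * (1 / 8) ^ k * (4 * Λ * (2 ^ k * τ))) := by gcongr
        _ = 4 * Λ * tubeC M * τ ^ 2 * ((1 / 8) ^ k * 2 ^ k) := by ring
        _ ≤ 4 * Λ * tubeC M * τ ^ 2 * (1 / 2) ^ k := by gcongr
        _ ≤ B * τ ^ 2 * (1 / 2) ^ k := by
            gcongr
            rw [hB]
            have : 0 ≤ 4 * π * Λ ^ 2 := by positivity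
            linarith
  rw [← hZ]
  refine hvol.trans (ENNReal.ofReal_le_ofReal ?_)
  rw [hτ, le_div_iff₀ ht4]
  have e : 3 * B * (C / t ^ 2) ^ 2 * t ^ 4 = 3 * B * C ^ 2 := by
    field_simp
  rw [e]
  have : 0 ≤ π * (a / 8) ^ 2 * C₁ ^ 2 := by positivity
  linarith

end Vale.Agent.P128.H445
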